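import Vale.Agent.P281.H383.MX.Stat
import Vale.Agent.P281.H383.MG.Fin
import Vale.Agent.P281.H64.Z4.Core
import Vale.Agent.P281.H495.Cov.Z5
import Vale.Agent.P281.H303.R.Link2
import Vale.Agent.P281.H303.X.Log
import Vale.Agent.P281.H364.MM.LinkFin

/-!
# P281: towers with mixed Gauss maps, the proof (helper383; follows helper64's `H64/Z4/Core`)
-/

open Set
open Vale.Agent.P281 Vale.Agent.P281.H713.TZ.S
open Vale.Agent.P281.H511.Surf (IsFibration IsFibre)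
open Vale.Agent.P281.H64.Thin (IsThinSet)
open Vale.Agent.P281.H64.TW (KodFCompStmt)
open Vale.Agent.P281.H64.Z4 (HKLe TMLe)
open scoped Manifold ContDiff Topology

set_option linter.unusedSectionVars false

noncomputable section

namespace Vale.Agent.P281.H383.MX

section
variable {n p d : ℕ} {X Y : Type} [tX : TopologicalSpace X] [cX : ChartedSpace (Cm n) X]
  [tY : TopologicalSpace Y] [cY : ChartedSpace (Cm p) Y] {f : X → Y} {Δ : Set X → ℝ}

theorem kap_le (hf : Fibn n p f Δ) (h : HasNeat n p f Δ) : kO n p f Δ ≤ kY n p f Δ := by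
  rcases h with h | ⟨X₁, Y₁, _, _, _, _, f₁, Δ₁, h1, h2⟩
  · exact H303.X.kap_le_or hf (Or.inl h)
  · exact H303.R.kap_le_linked hf (Or.inr ⟨⟨X₁, Y₁, _, _, _, _, f₁, Δ₁⟩, h1, h2⟩)

theorem addLe_of (hf : Fibn n p f Δ) {a b : WithBot ℕ∞} (hab : b ≤ a)
    (h : a + kY n p f Δ ≤ kX n Δ) : AddLe n p f Δ b := by
  have h1 : b + kY n p f Δ ≤ kX n Δ := (add_le_add hab le_rfl).trans h
  exact ⟨h1, fun Γ hΓ => (add_le_add le_rfl (H303.X.log_le hf hΓ.1 hΓ.2.1 hΓ.2.2)).trans h1,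
    fun hn => (add_le_add le_rfl (kap_le hf hn)).trans h1⟩

end

/-- one storey -/
theorem storey_le (hk : HKLe) (tm : TMLe) {n p d : ℕ} (hn : n = p + d) (hd : 0 < d) {X Y : Type}
    [TopologicalSpace X] [ChartedSpace (Cm n) X] [TopologicalSpace Y] [ChartedSpace (Cm p) Y]
    {f : X → Y} {Δ : Set X → ℝ} {a : WithBot ℕ∞} (hf : Fibn n p f Δ)
    (ha : Storey n p d f Δ a) : a + kY n p f Δ ≤ kX n Δ := by
  subst hn
  rcases ha with h | ⟨hC, r, har, h | h⟩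
  · have h' : H64.Z4.SomeGE (p + d) p d f Δ a := h
    exact H64.Z4.some_le hk tm rfl hd hf h'
  · have h' : H383.MG.MixRank (p + d) p d f Δ r := h
    have h1 := (H383.MG.mix_ineq hd hf hC h').1
    exact (add_le_add har le_rfl).trans h1
  · have h' : H383.MG.PlRank (p + d) p d f Δ r := h
    have h1 := (H383.MG.pl_ineq hd hf hC h').1
    exact (add_le_add har le_rfl).trans h1

/-- **(A)** -/
theorem tower_le (hk : HKLe) (tm : TMLe) (comp : KodFCompStmt) {p k : ℕ}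
    {X Y : Type} [TopologicalSpace X] [ChartedSpace (Cm (p + k)) X] [TopologicalSpace Y]
    [ChartedSpace (Cm p) Y] {f : X → Y} {Δ : Set X → ℝ} {a : WithBot ℕ∞}
    (h : Tower p k X Y f Δ a) :
    Fibn (p + k) p f Δ ∧ a + kY (p + k) p f Δ ≤ kX (p + k) Δ := by
  induction h with
  | one d X Y f Δ a hd hf ha => exact ⟨hf, storey_le hk tm rfl hd hf ha⟩
  | step k d X Z Y g h Δ a b hd hg he ha hb ih =>
    obtain ⟨ih1, ih2⟩ := ih
    exact ⟨H64.TW.comp_fib hg ih1,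
      H64.Z4.comp_le comp hg ih1 he (storey_le hk tm (by omega) hd hg ha) ih2⟩
  | cov k X Z Y g h Δ b hf hg he _ ih => exact ⟨hf, H495.Cov.cov_z hf hg he ih.1 ih.2⟩
  | linked k X Y X₁ Y₁ f f₁ Δ Δ₁ a hl _ ih =>
    obtain ⟨ih1, ih2⟩ := ih
    obtain ⟨h0, h1, h2⟩ := H303.R.link_le (p + k) p X Y X₁ Y₁ f f₁ Δ Δ₁ ih1 hl
    exact ⟨h0, (add_le_add le_rfl h2).trans (ih2.trans h1)⟩

/-- the first storey -/
theorem top_le (hk : HKLe) (tm : TMLe) (comp : KodFCompStmt) {p k d : ℕ}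
    (hd : 0 < d) {X Z Y : Type} [TopologicalSpace X] [ChartedSpace (Cm (p + (k + d))) X]
    [TopologicalSpace Z] [ChartedSpace (Cm (p + k)) Z] [TopologicalSpace Y] [ChartedSpace (Cm p) Y]
    {g : X → Z} {h : Z → Y} {Δ : Set X → ℝ} {a : WithBot ℕ∞}
    (hg : Fibn (p + (k + d)) (p + k) g Δ)
    (he : Neat (p + (k + d)) (p + k) g Δ) (ha : Storey (p + (k + d)) (p + k) d g Δ a)
    (hG : VGen (p + k) fun z => ∀ (G : Type) [TopologicalSpace G] [T2Space G]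
      [ChartedSpace (Cm d) G] (i : G → X), Fbr (p + (k + d)) d g z i → Function.Injective i →
      kR (p + (k + d)) d i Δ ≤ a)
    (hb : Tower p k Z Y h (Bas (p + (k + d)) (p + k) g Δ) ((k : ℕ∞) : WithBot ℕ∞)) :
    Fibn (p + (k + d)) p (fun x => h (g x)) Δ ∧
    VGen p fun y => ∀ (F : Type) [TopologicalSpace F] [T2Space F] [ChartedSpace (Cm (k + d)) F]
      (i : F → X), Fbr (p + (k + d)) (k + d) (fun x => h (g x)) y i → Function.Injective i →
        kR (p + (k + d)) (k + d) i Δ +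
          kY (p + (k + d)) p (fun x => h (g x)) Δ ≤ kX (p + (k + d)) Δ := by
  have : IsManifold 𝓘(ℂ, Cm (p + k)) ω Z := hg.manifold.2
  obtain ⟨H, hH, hz⟩ := hG
  have hh := (tower_le hk tm comp hb).1
  have hh0 : IsFibration (Cm (p + k)) (Cm p) h (fun _ => 0) :=
    ⟨hh.hausdorff, hh.compact, hh.connected, hh.manifold, hh.hol, hh.fibres, H740.isSNC_zero⟩
  obtain ⟨H', hH', hy⟩ := H740.easyI (Nat.add_assoc p k d).symm g h Δ hg hh0 a H hH hz
  obtain ⟨h1, h2⟩ := tower_le hk tm comp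
    (Tower.step p k d X Z Y g h Δ a _ hd hg he ha hb)
  exact ⟨h1, H', hH', fun y hyH F _ _ _ i hi hinj =>
    (add_le_add (hy y hyH F i hi hinj) le_rfl).trans h2⟩

/-- **the theorem** -/
theorem main (hk : HKLe) (tm : TMLe) (comp : KodFCompStmt) :
    (∀ (p k : ℕ) (X Y : Type) [TopologicalSpace X] [Man (p + k) X]
      [TopologicalSpace Y] [Man p Y] (f : X → Y) (Δ : Set X → ℝ) (a b : WithBot ℕ∞),
      b ≤ a → Tower p k X Y f Δ a → AddLe (p + k) p f Δ b) ∧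
    (∀ (p k d : ℕ) (X Y X₁ Z Y₁ : Type) [TopologicalSpace X] [Man (p + (k + d)) X]
      [TopologicalSpace Y] [Man p Y] [TopologicalSpace X₁] [Man (p + (k + d)) X₁]
      [TopologicalSpace Z] [Man (p + k) Z] [TopologicalSpace Y₁] [Man p Y₁] (f : X → Y)
      (g : X₁ → Z) (h : Z → Y₁) (Δ : Set X → ℝ) (Δ₁ : Set X₁ → ℝ) (a : WithBot ℕ∞), 0 < d →
      Lk (p + (k + d)) p f Δ (fun x => h (g x)) Δ₁ →
      Fibn (p + (k + d)) (p + k) g Δ₁ → Neat (p + (k + d)) (p + k) g Δ₁ →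
      Storey (p + (k + d)) (p + k) d g Δ₁ a →
      VGen (p + k) (fun z => ∀ (G : Type) [TopologicalSpace G] [T2Space G] [Man d G] (i : G → X₁),
        Fbr (p + (k + d)) d g z i → Function.Injective i → kR (p + (k + d)) d i Δ₁ ≤ a) →
      Tower p k Z Y₁ h (Bas (p + (k + d)) (p + k) g Δ₁) ((k : ℕ∞) : WithBot ℕ∞) →
      VGen p (fun y => ∀ (F : Type) [TopologicalSpace F] [T2Space F] [Man (k + d) F] (i : F → X),
        Fbr (p + (k + d)) (k + d) f y i → Function.Injective i →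
          AddLe (p + (k + d)) p f Δ (kR (p + (k + d)) (k + d) i Δ))) := by
  refine ⟨fun p k X Y _ _ _ _ f Δ a b hab ha => ?_,
    fun p k d X Y X₁ Z Y₁ _ _ _ _ _ _ _ _ _ _ f g h Δ Δ₁ a hd hl hg he ha hG hb => ?_⟩
  · obtain ⟨hf, h⟩ := tower_le hk tm comp ha
    exact addLe_of hf hab h
  · obtain ⟨ih1, H₁, hH₁, ih2⟩ := top_le hk tm comp hd hg he ha hG hb
    obtain ⟨hf, h1, h2⟩ := H303.R.link_le (p + (k + d)) p X Y X₁ Y₁ f (fun x => h (g x)) Δ Δ₁ ih1 hl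
    obtain ⟨H, hH, hm⟩ := H364.MM.fibLinked p (k + d) X Y X₁ Y₁ f (fun x => h (g x)) Δ Δ₁ hf hl
      H₁ hH₁
    refine ⟨H, hH, fun y hy F _ _ _ i hi hinj => ?_⟩
    obtain ⟨y₁, hy₁, F₁, _, _, _, i₁, hi₁, hinj₁, hle⟩ := hm y hy F i hi hinj
    exact addLe_of hf le_rfl ((add_le_add hle h2).trans ((ih2 y₁ hy₁ F₁ i₁ hi₁ hinj₁).trans h1))

end Vale.Agent.P281.H383.MX
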