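import Vale.Agent.P281.H383.MX.Core
import Vale.Agent.P281.H64.Z5.FinA
import Vale.Agent.P281.H308.TW.Fin

/-!
# P281: towers with mixed Gauss maps, everything plugged (helper383)
-/

open Set
open Vale.Agent.P281 Vale.Agent.P281.H713.TZ.S
open scoped Manifold ContDiff Topology

set_option linter.all false

noncomputable section

namespace Vale.Agent.P281.H383.MX

theorem hkLe : H64.Z4.HKLe := by
  intro p d X Y _ _ _ _ f Δ hd hf hC
  obtain ⟨H, hH, hm⟩ := H64.Z5.hkLe p d X Y f Δ hd hf hC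
  exact ⟨H, hH, fun y hy F F' _ _ _ _ _ _ i π hi hπ hs => hm y hy F F' i π hi hπ hs⟩

theorem tmLe : H64.Z4.TMLe := by
  intro p X Y _ _ _ _ f Δ hf he
  exact H64.Z5.tmLe p X Y f Δ hf he

/-- **the theorem** -/
theorem final :
    (∀ (p k : ℕ) (X Y : Type) [TopologicalSpace X] [Man (p + k) X]
      [TopologicalSpace Y] [Man p Y] (f : X → Y) (Δ : Set X → ℝ) (a b : WithBot ℕ∞),
      b ≤ a → Tower p k X Y f Δ a → AddLe (p + k) p f Δ b) ∧
    (∀ (p k d : ℕ) (X Y X₁ Z Y₁ : Type) [TopologicalSpace X] [Man (p + (k + d)) X]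
      [TopologicalSpace Y] [Man p Y] [TopologicalSpace X₁] [Man (p + (k + d)) X₁]
      [TopologicalSpace Z] [Man (p + k) Z] [TopologicalSpace Y₁] [Man p Y₁] (f : X → Y)
      (g : X₁ → Z) (h : Z → Y₁) (Δ : Set X → ℝ) (Δ₁ : Set X₁ → ℝ) (a : WithBot ℕ∞), 0 < d →
      Lk (p + (k + d)) p f Δ (fun x => h (g x)) Δ₁ →
      Fibn (p + (k + d)) (p + k) g Δ₁ → Neat (p + (k + d)) (p + k) g Δ₁ →
      Storey (p + (k + d)) (p + k) d g Δ₁ a →
      VGen (p + k) (fun z => ∀ (G : Type) [TopologicalSpace G] [T2Space G] [Man d G] (i : G → X₁),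
        Fbr (p + (k + d)) d g z i → Function.Injective i → kR (p + (k + d)) d i Δ₁ ≤ a) →
      Tower p k Z Y₁ h (Bas (p + (k + d)) (p + k) g Δ₁) ((k : ℕ∞) : WithBot ℕ∞) →
      VGen p (fun y => ∀ (F : Type) [TopologicalSpace F] [T2Space F] [Man (k + d) F] (i : F → X),
        Fbr (p + (k + d)) (k + d) f y i → Function.Injective i →
          AddLe (p + (k + d)) p f Δ (kR (p + (k + d)) (k + d) i Δ))) :=
  main hkLe tmLe H308.TW.kodFComp

end Vale.Agent.P281.H383.MX
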