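import Mathlib.AlgebraicTopology.FundamentalGroupoid.SimplyConnected
import Vale.Agent.P272.K.Stmt
import Vale.Agent.P281.H511.Surf.Defs
import Vale.Agent.P281.H64.Thin.Defs

/-!
# P281: definitions for the statement on towers with mixed Gauss maps (helper383; the definitions of
helper64 / helper303 / helper740 in `H64/Z4/Defs` and of helper969, helper511, helper495 in `H383/MG/Stat`)
-/

open Set Filter
open Vale.Agent.P272.K (Chart IsKahler)
open Vale.Agent.P281 Vale.Agent.P281.H713.TZ.S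
open Vale.Agent.P281.H511.Surf (IsFibration IsFibre)
open Vale.Agent.P281.H64.Thin (IsThinSet)
open scoped Manifold ContDiff Topology

noncomputable section

namespace Vale.Agent.P281.H383.MX

/-! ### Abbreviations -/

/-- `X` has an atlas with values in `ℂ^n` (`X` is a complex manifold of dimension `n` if the changes of
charts are holomorphic). -/
abbrev Man (n : ℕ) (X : Type) [TopologicalSpace X] : Type := ChartedSpace (Cm n) X

/-- Linear forms on `ℂ^d`. -/
abbrev Cov (d : ℕ) : Type := Cm d →L[ℂ] ℂ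

section
variable (n p : ℕ) {X Y : Type} [tX : TopologicalSpace X] [cX : Man n X]
  [tY : TopologicalSpace Y] [cY : Man p Y]

/-- `φ` is holomorphic at `x`. -/
abbrev Hol (φ : X → ℂ) (x : X) : Prop := J.HolAt (Cm n) φ x

/-- The differential `dφ` at `x`. -/
abbrev df (φ : X → ℂ) (x : X) : Cov n := J.dif (Cm n) φ x

/-- `D` is a prime divisor. -/
abbrev Prime (D : Set X) : Prop := J.IsPrime (Cm n) D

/-- `f : (X, Δ) → Y` is a fibration: see `IsFibration`. -/
abbrev Fibn (f : X → Y) (Δ : Set X → ℝ) : Prop := IsFibration (Cm n) (Cm p) f Δ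

/-- `i : F → X` is the fibre of `f` over `y`, or an immersion in this fibre: see `IsFibre`. -/
abbrev Fbr (d : ℕ) {X Y F : Type} [TopologicalSpace X] [Man n X] [TopologicalSpace F]
    [Man d F] (f : X → Y) (y : Y) (i : F → X) : Prop := IsFibre (Cm n) (Cm d) f y i

/-- `H` is a countable family of thin closed sets. -/
def Thins (H : ℕ → Set X) : Prop := ∀ j, IsThinSet (Cm n) (H j)

/-- `κ(X, K_X + Δ)` -/
abbrev kX (Δ : Set X → ℝ) : WithBot ℕ∞ := kodX (Cm n) Δ

/-- `κ(F, K_F + Δ|F)` -/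
abbrev kR (d : ℕ) {F : Type} [TopologicalSpace F] [Man d F] (i : F → X)
    (Δ : Set X → ℝ) : WithBot ℕ∞ := kodR (Cm n) (Cm d) i Δ

/-- The orbifold base `B(f, Δ)`. -/
abbrev Bas (f : X → Y) (Δ : Set X → ℝ) : Set Y → ℝ := base (Cm n) (Cm p) f Δ

/-- The maximal rank of the meromorphic pluricanonical forms of `Y` whose pull-backs to `X` have poles
at most `m Δ`. -/
abbrev kY (f : X → Y) (Δ : Set X → ℝ) : WithBot ℕ∞ := kodF n p Δ (id : X → X) f

/-- Campana's orbifold base dimension `κ(f | Δ)`. -/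
abbrev kO (f : X → Y) (Δ : Set X → ℝ) : WithBot ℕ∞ :=
  kap (Cm n) (Cm p) ⟨X, Y, tX, tY, cX, cY, f, Δ⟩

/-- The components of `B(f, Δ)` which contain `f(D)`. -/
def Over (f : X → Y) (Δ : Set X → ℝ) (D : Set X) : Set (Set Y) :=
  {G | Bas n p f Δ G ≠ 0 ∧ f '' D ⊆ G}

/-- The multiplicity `ord_D(f^* G)`. -/
def ordD (f : X → Y) (D : Set X) (G : Set Y) : ℕ :=
  sInf {k : ℕ | ∃ x ∈ D, ∃ e g w, J.IsLocalEq (Cm n) D e x ∧ J.IsLocalEq (Cm p) G g (f x) ∧
    Hol n w x ∧ w x ≠ 0 ∧ ∀ᶠ z in 𝓝 x, g (f z) = e z ^ k * w z}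

/-- The exceptional prime divisors `D` of `f` (`f(D)` is neither `Y` nor a prime divisor) are
harmless: `B = B(f, Δ)` has simple normal crossings near `f(D)`, and at most one component of `B`
contains `f(D)`, or `f(D)` contains no nonempty open subset of the intersection of the components of
`B` which contain it, or `∑_G ord_D(f^* G) / m(f, Δ; G) ≥ 1 / m_Δ(D)`, the sum over these components
(for instance `Δ(D) = 1`). -/
def Neat (f : X → Y) (Δ : Set X → ℝ) : Prop :=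
  ∀ D, Prime n D → closure (f '' D) = univ ∨ Prime p (closure (f '' D)) ∨
    (∃ U, IsOpen U ∧ f '' D ⊆ U ∧ ∀ y ∈ U, SNCAt (Cm p) (Bas n p f Δ) y) ∧
      ((Over n p f Δ D).Subsingleton ∨
        (∀ V, IsOpen V → V ∩ ⋂₀ Over n p f Δ D ⊆ f '' D → V ∩ ⋂₀ Over n p f Δ D = ∅) ∨
        1 - Δ D ≤ ∑ᶠ G ∈ Over n p f Δ D, (ordD n p f D G : ℝ) * (1 - Bas n p f Δ G))

/-- `f : (X, Δ) → Y` and `f₁ : (X₁, Δ₁) → Y₁` are linked by a chain of squares as in the problem, in
either direction (for instance, `f₁ = f`). -/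
abbrev Lk {X₁ Y₁ : Type} [tX₁ : TopologicalSpace X₁] [cX₁ : Man n X₁] [tY₁ : TopologicalSpace Y₁]
    [cY₁ : Man p Y₁] (f : X → Y) (Δ : Set X → ℝ) (f₁ : X₁ → Y₁) (Δ₁ : Set X₁ → ℝ) : Prop :=
  Linked (Cm n) (Cm p) ⟨X, Y, tX, tY, cX, cY, f, Δ⟩ ⟨X₁, Y₁, tX₁, tY₁, cX₁, cY₁, f₁, Δ₁⟩

/-- `Y` is a curve, or `f : (X, Δ) → Y` is linked to a neat fibration `f₁` (for instance `f₁ = f`, if
it is neat). -/
def HasNeat (f : X → Y) (Δ : Set X → ℝ) : Prop :=
  p = 1 ∨ ∃ (X₁ Y₁ : Type) (_ : TopologicalSpace X₁) (_ : Man n X₁)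
    (_ : TopologicalSpace Y₁) (_ : Man p Y₁) (f₁ : X₁ → Y₁) (Δ₁ : Set X₁ → ℝ),
    Lk n p f Δ f₁ Δ₁ ∧ Neat n p f₁ Δ₁

/-- `Γ` is a reduced divisor of `Y` with simple normal crossings (or `0`), and the prime divisors of
`X` which are mapped into `Γ` have coefficient `1` in `Δ`. -/
def LogBase (f : X → Y) (Δ : Set X → ℝ) (Γ : Set Y → ℝ) : Prop :=
  J.IsSNC (Cm p) Γ ∧ (∀ G, Γ G = 0 ∨ Γ G = 1) ∧
    ∀ E G, Prime n E → Γ G = 1 → f '' E ⊆ G → Δ E = 1

/-- `κ(X, K_X + Δ) ≥ a + k`, `k = kY f Δ`; `κ(X, K_X + Δ) ≥ a + κ(Y, K_Y + Γ)` if `LogBase`; and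
`κ(X, K_X + Δ) ≥ a + κ(f | Δ)` if `HasNeat`. -/
def AddLe (f : X → Y) (Δ : Set X → ℝ) (a : WithBot ℕ∞) : Prop :=
  a + kY n p f Δ ≤ kX n Δ ∧ (∀ Γ, LogBase n p f Δ Γ → a + kX p Γ ≤ kX n Δ) ∧
    (HasNeat n p f Δ → a + kO n p f Δ ≤ kX n Δ)

end

/-! ### The fibres -/

section
variable (d : ℕ) {F : Type} [TopologicalSpace F] [Man d F]

/-- `η` is a closed holomorphic 1-form: locally, the differential of a holomorphic function. -/
def Closed1 (η : F → Cov d) : Prop :=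
  ∀ x, ∃ ψ : F → ℂ, Hol d ψ x ∧ ∀ᶠ z in 𝓝 x, η z = df d ψ z

/-- `φ` is, near `x`, a primitive of a closed holomorphic 1-form of `F`. -/
def IsPrim (φ : F → ℂ) (x : F) : Prop :=
  Hol d φ x ∧ ∃ η : F → Cov d, (∀ᶠ z in 𝓝 x, η z = df d φ z) ∧ Closed1 d η

/-- The coefficient of `dφ_1 ∧ ⋯ ∧ dφ_d` in the chart of `F` at `x`. -/
def coef (x : F) (φ : Fin d → F → ℂ) (v : Cm d) : ℂ :=
  (Matrix.of fun a b => fderiv ℂ (fun u => φ a ((chartAt (Cm d) x).symm u)) v
    (Pi.single b 1)).det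

/-- The map to `ℙ^r` given by the functions `g_0, …, g_r` in the chart of `F` at `x` has rank `r` at
`x`. -/
def RankAt {r : ℕ} {F : Type} [TopologicalSpace F] [Man d F] (x : F)
    (g : Fin (r + 1) → Cm d → ℂ) : Prop :=
  g 0 (chartAt (Cm d) x x) ≠ 0 ∧ Function.Surjective fun (ξ : Cm d) (k : Fin r) =>
    fderiv ℂ (fun v => g k.succ v / g 0 v) (chartAt (Cm d) x x) ξ

/-- The Gauss map of `F`, given by the products `s = η_1 ∧ ⋯ ∧ η_d` of closed holomorphic 1-forms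
(sections of `K_F`), has rank at least `r` at some point `x`. -/
def GaussRank (F : Type) [TopologicalSpace F] [Man d F] (r : ℕ) : Prop :=
  ∃ (x : F) (φ : Fin (r + 1) → Fin d → F → ℂ), (∀ k a, IsPrim d (φ k a) x) ∧
    RankAt d x fun k => coef d x (φ k)

/-- The closed holomorphic 1-forms of `F` generate its cotangent spaces (that is, if `F` is compact:
`F` is immersed in a complex torus). -/
def IsGen (F : Type) [TopologicalSpace F] [Man d F] : Prop :=
  ∀ (x : F) (v : Cm d), v ≠ 0 → ∃ η : F → Cov d, Closed1 d η ∧ η x v ≠ 0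

/-- `α` is a closed holomorphic 2-form: locally, a sum of forms `dψ ∧ dφ`, where `ψ` and `φ` are
holomorphic functions. -/
def Closed2 (α : F → Cm d → Cm d → ℂ) : Prop :=
  ∀ x, ∃ (m : ℕ) (ψ φ : Fin m → F → ℂ), (∀ j, Hol d (ψ j) x ∧ Hol d (φ j) x) ∧
    ∀ᶠ z in 𝓝 x, ∀ u v, α z u v = ∑ j, (df d (ψ j) z u * df d (φ j) z v -
      df d (ψ j) z v * df d (φ j) z u)

/-- The closed holomorphic 2-forms of `F` are the multiples of one form, which is nondegenerate at
some point (for instance: K3 surfaces, irreducible holomorphic symplectic manifolds). -/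
def Sympl (F : Type) [TopologicalSpace F] [Man d F] : Prop :=
  ∃ α : F → Cm d → Cm d → ℂ, Closed2 d α ∧ (∃ x, ∀ u, (∀ v, α x u v = 0) → u = 0) ∧
    ∀ β : F → Cm d → Cm d → ℂ, Closed2 d β → ∃ c : ℂ, ∀ x u v, β x u v = c * α x u v

/-- `π : F' → F` is a finite étale covering of the compact connected manifold `F` by a compact
connected manifold: a holomorphic immersion in `F`, the fibre of `F → {pt}`. -/
def IsCover {F' : Type} [TopologicalSpace F'] [Man d F'] (π : F' → F) : Prop :=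
  T2Space F' ∧ Fbr d d (fun _ : F => ()) () π

end

/-- The complex manifold `X` has a Kähler metric. -/
def Kahler (n : ℕ) (X : Type) [TopologicalSpace X] [Man n X] : Prop :=
  ∃ w : Chart n X → Cm n → Matrix (Fin n) (Fin n) ℂ, IsKahler w

/-- `X` has a proper modification `u : X₁ → X` with a Kähler manifold `X₁` (that is, if `X` is
compact: `X` is in Fujiki's class `𝒞`). -/
def ClassC (n : ℕ) (X : Type) [TopologicalSpace X] [Man n X] : Prop :=
  ∃ (X₁ : Type) (_ : TopologicalSpace X₁) (_ : Man n X₁) (u : X₁ → X),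
    IsModif (Cm n) u ∧ Kahler n X₁

/-- `f : (X, Δ) → Y` is a family of elliptic surfaces: `f = h ∘ g` for two fibrations `g : X → Z` and
`h : Z → Y` of relative dimension one, no component of `Δ` is mapped onto `Z`, and off any countable
family of thin closed sets `g` has a fibre with a closed holomorphic 1-form without zeros (that is, an
elliptic curve). -/
def EllFib (n p d : ℕ) {X Y : Type} [TopologicalSpace X] [Man n X] [TopologicalSpace Y] [Man p Y]
    (f : X → Y) (Δ : Set X → ℝ) : Prop :=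
  d = 2 ∧ ∃ (Z : Type) (_ : TopologicalSpace Z) (_ : Man (p + 1) Z) (g : X → Z) (h : Z → Y),
    Fibn n (p + 1) g Δ ∧ Fibn (p + 1) p h (fun _ => 0) ∧ (∀ x, f x = h (g x)) ∧
    (∀ D, Δ D ≠ 0 → closure (g '' D) ≠ univ) ∧ ∀ H : ℕ → Set Z, Thins (p + 1) H →
      ∃ z, (∀ j, z ∉ H j) ∧ ∃ (G : Type) (_ : TopologicalSpace G) (_ : T2Space G) (_ : Man 1 G)
        (i : G → X) (η : G → Cov 1), Fbr n 1 g z i ∧ Closed1 1 η ∧ ∀ x v, η x v = 0 → v = 0

/-- `a ≤ κ(F, K_F + Δ|F)` and `d = 1` or `f` is a family of elliptic surfaces; or `X` is in Fujiki's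
class and some finite étale covering `F'` of `F` is immersed in a complex torus and
`a ≤ κ(F, K_F + Δ|F)`, or has a Gauss map of rank at least `a`, or `a ≤ 0` and `F'` is simply connected
and symplectic (see `Sympl`). -/
def FibGE (n p d : ℕ) {X Y F : Type} [TopologicalSpace X] [Man n X] [TopologicalSpace Y] [Man p Y]
    [TopologicalSpace F] [Man d F] (f : X → Y) (Δ : Set X → ℝ) (i : F → X)
    (a : WithBot ℕ∞) : Prop :=
  ((d = 1 ∨ EllFib n p d f Δ ∧ Function.Injective i) ∧ a ≤ kR n d i Δ) ∨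
    ClassC n X ∧ ∃ (F' : Type) (_ : TopologicalSpace F')
      (_ : Man d F') (π : F' → F), IsCover d π ∧
        ((IsGen d F' ∧ a ≤ kR n d i Δ) ∨
          (∃ r : ℕ, GaussRank d F' r ∧ a ≤ ((r : ℕ∞) : WithBot ℕ∞)) ∨
          2 ≤ d ∧ SimplyConnectedSpace F' ∧ Sympl d F' ∧ a ≤ 0)

/-! ### Mixed Gauss maps -/

/-- `P y` holds for the very general points `y` of `Y`: for the points off countably many thin closed
subsets. -/
def VGen (p : ℕ) {Y : Type} [TopologicalSpace Y] [Man p Y] (P : Y → Prop) : Prop :=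
  ∃ H : ℕ → Set Y, Thins p H ∧ ∀ y, (∀ j, y ∉ H j) → P y

/-- `ℓ` is, near `x`, a holomorphic branch of `log u`, where `u` is a meromorphic function on `F` with
divisor `∑_D a D (D|F)`, `D ∈ 𝒟` (off which it is holomorphic, without zeros), for `i : F → X`. -/
def IsLog (n d : ℕ) {X F : Type} [TopologicalSpace X] [Man n X]
    [TopologicalSpace F] [Man d F] (i : F → X) (𝒟 : Finset (Set X))
    (a : Set X → ℤ) (x : F) (ℓ : F → ℂ) : Prop :=
  Hol d ℓ x ∧ ∃ u : F → ℂ, (∀ᶠ z in 𝓝 x, Complex.exp (ℓ z) = u z) ∧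
    ∀ t, ∀ e : Set X → X → ℂ, (∀ D ∈ 𝒟, J.IsLocalEq (Cm n) D (e D) (i t)) →
      ∃ h : F → ℂ, Hol d h t ∧ h t ≠ 0 ∧
        ∀ᶠ s in 𝓝 t, (∀ D ∈ 𝒟, i s ∉ D) → u s = h s * ∏ D ∈ 𝒟, e D (i s) ^ a D

/-- The number of factors of the `N`-form with the divisors `a` in which `D` occurs. -/
def cnt {X : Type} {N d : ℕ} (a : Fin N → Fin d → Set X → ℤ) (D : Set X) : ℕ :=
  open scoped Classical in (Finset.univ.filter fun j => ∃ b, a j b D ≠ 0).card

section
variable {X Y : Type} [TopologicalSpace X] [TopologicalSpace Y]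

/-- Some connected finite étale covering `F` with at most `m` sheets of the fibre of `f` over `y` has
a mixed Gauss map of rank at least `r` at some point `x`: this is the map to `ℙ^r` given by `r + 1`
products of `d` forms `η + ∑_j c_j du_j / u_j`, where `η` is a closed holomorphic 1-form of `F`
(`η = dφ` near `x`), `c_j ∈ ℂ`, and `u_j` is a meromorphic function on `F` with divisor
`∑_D a_j D (D|F)`, `D ∈ 𝒟` (`du_j / u_j = dℓ_j` near `x`). -/
def RankM (n d : ℕ) [Man n X] (f : X → Y) (𝒟 : Finset (Set X)) {q : ℕ}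
    (a : Fin q → Set X → ℤ) (m r : ℕ) (y : Y) : Prop :=
  ∃ (F : Type) (_ : TopologicalSpace F) (_ : T2Space F) (_ : Man d F) (i : F → X)
    (x : F) (ℓ : Fin q → F → ℂ) (φ : Fin (r + 1) → Fin d → F → ℂ)
    (c : Fin (r + 1) → Fin d → Fin q → ℂ), Fbr n d f y i ∧
    (∀ x, (i ⁻¹' {x}).encard ≤ m) ∧ (∀ D ∈ 𝒟, i x ∉ D) ∧ (∀ j, IsLog n d i 𝒟 (a j) x (ℓ j)) ∧
    (∀ s b, IsPrim d (φ s b) x) ∧
    RankAt d x fun s => coef d x fun b z => φ s b z + ∑ j, c s b j * ℓ j z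

/-- The map of the fibre of `f` over `y` to `ℙ^r` given by the `r + 1` products
`∏_j (du_{s, j, 1} / u_{s, j, 1} ∧ ⋯ ∧ du_{s, j, d} / u_{s, j, d})` (`j < N`, `s ≤ r`) of meromorphic
functions `u_{s, j, b}` with divisors `∑_D a_{s, j, b} D (D|F)`, `D ∈ 𝒟`, has rank at least `r` at
some point. -/
def RankN (n d : ℕ) [Man n X] (f : X → Y) (𝒟 : Finset (Set X)) {r N : ℕ}
    (a : Fin (r + 1) → Fin N → Fin d → Set X → ℤ) (y : Y) : Prop :=
  ∃ (F : Type) (_ : TopologicalSpace F) (_ : Man d F) (i : F → X) (x : F)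
    (ℓ : Fin (r + 1) → Fin N → Fin d → F → ℂ), Fbr n d f y i ∧
    Function.Injective i ∧ (∀ D ∈ 𝒟, i x ∉ D) ∧
    (∀ s j b, IsLog n d i 𝒟 (a s j b) x (ℓ s j b)) ∧
    RankAt d x fun s v => ∏ j, coef d x (ℓ s j) v

variable (n p d : ℕ) [Man n X] [Man p Y] (f : X → Y) (Δ : Set X → ℝ) (r : ℕ)

/-- The mixed Gauss maps with logarithmic poles along the `D ∈ 𝒟` of (coverings of) the very general
fibres of `f` have rank at least `r`, where `𝒟` is a finite set of components of `Δ`, and those with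
`Δ D < 1` are mapped onto `Y`; and some nonzero product of this kind has poles only along components
`D ∈ 𝒟₁` with `Δ D = 1` (this is automatic if all `D ∈ 𝒟` are like this), or some nonzero `N`-form
as in `RankN` has less than `N Δ D` factors in which `D` occurs, for all `D ∈ 𝒟` with `Δ D < 1`. -/
def MixRank : Prop :=
  ∃ (m q q₁ N : ℕ) (𝒟 𝒟₁ : Finset (Set X)) (a : Fin q → Set X → ℤ) (a₁ : Fin q₁ → Set X → ℤ)
    (a₂ : Fin 1 → Fin N → Fin d → Set X → ℤ),
    (∀ D ∈ 𝒟, Δ D ≠ 0 ∧ (Δ D < 1 → f '' D = univ)) ∧ VGen p (RankM n d f 𝒟 a m r) ∧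
    ((∀ D ∈ 𝒟₁, Δ D = 1) ∧ VGen p (RankM n d f 𝒟₁ a₁ m 0) ∨
      0 < N ∧ (∀ D ∈ 𝒟, Δ D < 1 → (cnt (a₂ 0) D : ℝ) < N * Δ D) ∧ VGen p (RankN n d f 𝒟 a₂))

/-- For some `N > 0` and some `N`-forms as in `RankN`, with at most `N Δ D` factors in which `D`
occurs, for all `D ∈ 𝒟`, where `𝒟` is a finite set of components of `Δ`, the very general fibres have
`RankN`. -/
def PlRank : Prop :=
  ∃ (N : ℕ) (𝒟 : Finset (Set X)) (a : Fin (r + 1) → Fin N → Fin d → Set X → ℤ), 0 < N ∧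
    (∀ D ∈ 𝒟, Δ D ≠ 0 ∧ ∀ s, (cnt (a s) D : ℝ) ≤ N * Δ D) ∧ VGen p (RankN n d f 𝒟 a)

end

/-! ### Towers -/

/-- There are very general fibres with `FibGE`; or `X` is in Fujiki's class, `f` has `MixRank` or
`PlRank`, and `a` is at most this rank. -/
def Storey (n p d : ℕ) {X Y : Type} [TopologicalSpace X] [Man n X] [TopologicalSpace Y] [Man p Y]
    (f : X → Y) (Δ : Set X → ℝ) (a : WithBot ℕ∞) : Prop :=
  (∀ H : ℕ → Set Y, Thins p H → ∃ y, (∀ j, y ∉ H j) ∧ ∃ (F : Type) (_ : TopologicalSpace F)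
    (_ : T2Space F) (_ : Man d F) (i : F → X), Fbr n d f y i ∧ FibGE n p d f Δ i a) ∨
  ClassC n X ∧ ∃ r : ℕ, a ≤ ((r : ℕ∞) : WithBot ℕ∞) ∧
    (MixRank n p d f Δ r ∨ PlRank n p d f Δ r)

/-- `f : (X, Δ) → Y` is a tower of fibrations: it is one storey, or `f = h ∘ g`, where the storey
`g : X → Z` is neat (or: `g` is neat, holomorphic and surjective, and `dim X = dim Z`), and
`h : (Z, B(g, Δ)) → Y` is a tower; or `f` is linked to a tower. The number is the sum of the numbers of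
the storeys. -/
inductive Tower : ∀ (p k : ℕ) (X Y : Type) [TopologicalSpace X] [Man (p + k) X]
    [TopologicalSpace Y] [Man p Y], (X → Y) → (Set X → ℝ) → WithBot ℕ∞ → Prop
  | one (p d : ℕ) (X Y : Type) [TopologicalSpace X] [Man (p + d) X] [TopologicalSpace Y] [Man p Y]
      (f : X → Y) (Δ : Set X → ℝ) (a : WithBot ℕ∞) (hd : 0 < d)
      (hf : Fibn (p + d) p f Δ) (ha : Storey (p + d) p d f Δ a) : Tower p d X Y f Δ a
  | step (p k d : ℕ) (X Z Y : Type) [TopologicalSpace X] [Man (p + (k + d)) X]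
      [TopologicalSpace Z] [Man (p + k) Z] [TopologicalSpace Y] [Man p Y] (g : X → Z) (h : Z → Y)
      (Δ : Set X → ℝ) (a b : WithBot ℕ∞) (hd : 0 < d) (hg : Fibn (p + (k + d)) (p + k) g Δ)
      (he : Neat (p + (k + d)) (p + k) g Δ) (ha : Storey (p + (k + d)) (p + k) d g Δ a)
      (hb : Tower p k Z Y h (Bas (p + (k + d)) (p + k) g Δ) b) :
      Tower p (k + d) X Y (fun x => h (g x)) Δ (a + b)
  | cov (p k : ℕ) (X Z Y : Type) [TopologicalSpace X] [Man (p + k) X] [TopologicalSpace Z]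
      [Man (p + k) Z] [TopologicalSpace Y] [Man p Y] (g : X → Z) (h : Z → Y) (Δ : Set X → ℝ)
      (b : WithBot ℕ∞) (hf : Fibn (p + k) p (fun x => h (g x)) Δ)
      (hg : Continuous g ∧ Function.Surjective g ∧
        ∀ x φ, Hol (p + k) φ (g x) → Hol (p + k) (fun z => φ (g z)) x)
      (he : Neat (p + k) (p + k) g Δ) (hb : Tower p k Z Y h (Bas (p + k) (p + k) g Δ) b) :
      Tower p k X Y (fun x => h (g x)) Δ b
  | linked (p k : ℕ) (X Y X₁ Y₁ : Type) [TopologicalSpace X] [Man (p + k) X] [TopologicalSpace Y]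
      [Man p Y] [TopologicalSpace X₁] [Man (p + k) X₁] [TopologicalSpace Y₁] [Man p Y₁] (f : X → Y)
      (f₁ : X₁ → Y₁) (Δ : Set X → ℝ) (Δ₁ : Set X₁ → ℝ) (a : WithBot ℕ∞)
      (hl : Lk (p + k) p f Δ f₁ Δ₁) (h : Tower p k X₁ Y₁ f₁ Δ₁ a) : Tower p k X Y f Δ a

end Vale.Agent.P281.H383.MX
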